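import Vale.Agent.P196.Full.Defs

/-!
# P196: finiteness of the mod-2 coinvariants

If the sums of finitely many observables over the cells of coarse grids take, as vectors, values in
spans of boundedly many vectors, then the mod-2 functions modulo translation form a
finite-dimensional space.
-/

namespace Vale.Agent.P196.Full

variable {X : Type} [TopologicalSpace X]

/-- A translated observable. -/
def Sys.shiftFun (S : Sys X) (v : Lat) :
    LocallyConstant X (ZMod 2) →ₗ[ZMod 2] LocallyConstant X (ZMod 2) where
  toFun f := ⟨f ∘ S.sh v, f.isLocallyConstant.comp_continuous (S.sh v).continuous⟩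
  map_add' _ _ := rfl
  map_smul' _ _ := rfl

@[simp] theorem Sys.shiftFun_apply (S : Sys X) (v : Lat) (f : LocallyConstant X (ZMod 2)) (x : X) :
    S.shiftFun v f x = f (S.sh v x) := rfl

/-- The translation relations. -/
def Sys.coinvRel (S : Sys X) : Submodule (ZMod 2) (LocallyConstant X (ZMod 2)) :=
  ⨆ v : Lat, LinearMap.range (S.shiftFun v - LinearMap.id)

/-- Mod-2 functions modulo translation. -/
abbrev Sys.Coinv (S : Sys X) : Type := LocallyConstant X (ZMod 2) ⧸ S.coinvRel

theorem Sys.mk_shiftFun (S : Sys X) (v : Lat) (f : LocallyConstant X (ZMod 2)) :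
    S.coinvRel.mkQ (S.shiftFun v f) = S.coinvRel.mkQ f := by
  rw [Submodule.mkQ_apply, Submodule.mkQ_apply, Submodule.Quotient.eq]
  exact Submodule.mem_iSup_of_mem v ⟨f, rfl⟩

/-- The vectors of sums over the cells of arbitrarily coarse grids lie in spans of boundedly many
vectors, whatever the finite family of observables. -/
def Tower.BoundedArea {S : Sys X} (T : Tower S) : Prop :=
  ∃ Q : ℕ, ∀ (ι : Type) [Finite ι] (f : X → ι → ZMod 2), IsLocallyConstant f →
    ∃ (m : ℕ) (V : Finset (ι → ZMod 2)), V.card ≤ Q ∧ ∀ x, T.phase m x = 0 →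
      (∑ a ∈ Finset.range (T.W m), ∑ b ∈ Finset.range (T.W m),
          f (S.sh ((a : ℤ), (b : ℤ)) x)) ∈ Submodule.span (ZMod 2) (V : Set (ι → ZMod 2))

namespace Tower

variable {S : Sys X} (T : Tower S)

/-- A class is the class of the sums over the cells, placed at their corners. -/
theorem coinv_eq_area (m : ℕ) (f h : LocallyConstant X (ZMod 2))
    (hh : ∀ x, h x = if T.phase m x = 0 then
      ∑ a ∈ Finset.range (T.W m), ∑ b ∈ Finset.range (T.W m), f (S.sh ((a : ℤ), (b : ℤ)) x) else 0) :
    S.coinvRel.mkQ f = S.coinvRel.mkQ h := by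
  classical
  have : NeZero (T.W m) := ⟨(T.W_pos m).ne'⟩
  let piece : ℕ → ℕ → LocallyConstant X (ZMod 2) := fun a b =>
    f * LocallyConstant.charFn (ZMod 2) (T.isClopen_fiber m ((a : ZMod (T.W m)), (b : ZMod (T.W m))))
  have hpiece : ∀ a b x, piece a b x =
      if T.phase m x = ((a : ZMod (T.W m)), (b : ZMod (T.W m))) then f x else 0 := by
    intro a b x
    simp only [piece, LocallyConstant.coe_mul, Pi.mul_apply, LocallyConstant.coe_charFn,
      Set.indicator_apply, Set.mem_ofPred_eq, Pi.one_apply, mul_ite, mul_one, mul_zero]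
  have hf : f = ∑ a ∈ Finset.range (T.W m), ∑ b ∈ Finset.range (T.W m), piece a b := by
    ext x
    simp only [← LocallyConstant.evalAddMonoidHom_apply (x := x), map_sum]
    simp only [LocallyConstant.evalAddMonoidHom_apply, hpiece]
    rw [Finset.sum_eq_single (T.phase m x).1.val]
    · rw [Finset.sum_eq_single (T.phase m x).2.val]
      · simp
      · intro b hb hne
        rw [if_neg]
        intro e
        apply hne
        rw [e]
        simp [ZMod.val_natCast, Nat.mod_eq_of_lt (Finset.mem_range.1 hb)]
      · intro hn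
        exact absurd (Finset.mem_range.2 (ZMod.val_lt _)) hn
    · intro a ha hne
      refine Finset.sum_eq_zero fun b _ => if_neg fun e => hne ?_
      rw [e]
      simp [ZMod.val_natCast, Nat.mod_eq_of_lt (Finset.mem_range.1 ha)]
    · intro hn
      exact absurd (Finset.mem_range.2 (ZMod.val_lt _)) hn
  have hsum : h = ∑ a ∈ Finset.range (T.W m), ∑ b ∈ Finset.range (T.W m),
      S.shiftFun ((a : ℤ), (b : ℤ)) (piece a b) := by
    ext x
    simp only [← LocallyConstant.evalAddMonoidHom_apply (x := x), map_sum]
    simp only [LocallyConstant.evalAddMonoidHom_apply, Sys.shiftFun_apply, hpiece, T.phase_sh,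
      Int.cast_natCast, add_eq_right, hh]
    by_cases h0 : T.phase m x = 0
    · simp [h0]
    · simp [h0]
  rw [hf, hsum]
  simp only [map_sum, Sys.mk_shiftFun]

/-- Bounded areas give finite-dimensional coinvariants. -/
theorem coinv_finite (hA : T.BoundedArea) : Module.Finite (ZMod 2) S.Coinv := by
  classical
  obtain ⟨Q, hQ⟩ := hA
  refine Module.rank_lt_aleph0_iff.1 (lt_of_le_of_lt (rank_le (n := Q) fun s hs => ?_)
    Cardinal.natCast_lt_aleph0)
  by_contra hcard
  push Not at hcard
  choose g hg using fun i : s => S.coinvRel.mkQ_surjective (i : S.Coinv)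
  let f : X → s → ZMod 2 := fun x i => g i x
  have hflc : IsLocallyConstant f := by
    refine (IsLocallyConstant.iff_eventually_eq f).2 fun x => ?_
    have : ∀ i : s, ∀ᶠ y in nhds x, g i y = g i x :=
      fun i => (g i).isLocallyConstant.eventually_eq x
    filter_upwards [Filter.eventually_all.2 this] with y hy
    exact funext hy
  obtain ⟨m, V, hV, hspan⟩ := hQ s f hflc
  -- a dependence killing the span
  obtain ⟨c, hc0, hc⟩ : ∃ c : s → ZMod 2, c ≠ 0 ∧ ∀ v ∈ V, ∑ i, c i * v i = 0 := by
    let Φ : (s → ZMod 2) →ₗ[ZMod 2] (V → ZMod 2) :=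
      LinearMap.pi fun v : V => ∑ i, ((v : s → ZMod 2) i) • LinearMap.proj i
    have hker : LinearMap.ker Φ ≠ ⊥ := fun hk => by
      have := LinearMap.finrank_le_finrank_of_injective (LinearMap.ker_eq_bot.1 hk)
      rw [Module.finrank_fintype_fun_eq_card, Module.finrank_fintype_fun_eq_card,
        Fintype.card_coe, Fintype.card_coe] at this
      omega
    obtain ⟨c, hc, hc0⟩ := Submodule.exists_mem_ne_zero_of_ne_bot hker
    refine ⟨c, hc0, fun v hv => ?_⟩
    have := congrFun (LinearMap.mem_ker.1 hc) ⟨v, hv⟩
    simpa [Φ, mul_comm] using this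
  let F : LocallyConstant X (ZMod 2) := ∑ i, c i • g i
  have hF : S.coinvRel.mkQ F = 0 := by
    rw [T.coinv_eq_area m F 0, map_zero]
    intro x
    rw [LocallyConstant.coe_zero, Pi.zero_apply]
    split
    swap
    · rfl
    next h0 =>
    have hx := hspan x h0
    let ψ : (s → ZMod 2) →ₗ[ZMod 2] ZMod 2 := ∑ i, c i • LinearMap.proj i
    have hψ : ∀ v ∈ Submodule.span (ZMod 2) (V : Set (s → ZMod 2)), ψ v = 0 := fun v hv => by
      refine (Submodule.span_le (p := LinearMap.ker ψ)).2 (fun w hw => ?_) hv
      simpa [ψ] using hc w hw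
    have := hψ _ hx
    simp only [map_sum] at this
    rw [← this]
    refine Finset.sum_congr rfl fun a _ => Finset.sum_congr rfl fun b _ => ?_
    rw [← LocallyConstant.evalAddMonoidHom_apply (x := S.sh ((a : ℤ), (b : ℤ)) x) F, map_sum]
    simp [ψ, f]
  have hind := Fintype.linearIndependent_iff.1 hs c (by
    simpa [F, map_sum, hg] using hF)
  exact hc0 (funext hind)

end Tower

end Vale.Agent.P196.Full
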